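import Vale.Agent.P144T.Defs
import Vale.Agent.P144S.Defs
import Vale.Agent.P144Z.St.Plus

/-!
Existence of the scaling limits for the plus boundary condition in multiply connected domains.
The dual free model on the graph of the cells of `P` is the model in which every component of the
complement of `P` carries one spin; a disorder outside `P` is the spin of its component.
Definitions and statements of the blocks.
-/

namespace Vale.Agent.P144Y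

open Filter Topology Metric Vale.Agent.P144
open Vale.Agent.P144.H170 (Pt pt nf CConv HD Mk F2 rM bx)
open Vale.Agent.P144.AL (cnr lap tauR theA Pf)
open Vale.Agent.P144Z.St (mag)

export Vale.Agent.P144S (Vx ih iv QQ MM Wf xA xB xC xD Spr Blk ce cp Rq pl sP Lip4 SSpr)
export Vale.Agent.P144T (IsH Appr Fam0 Van Kg)
export Vale.Agent.P144Q (Good0 Fat NormE Mn Gn ball_Dia pt_sub_le lap_div)

/-- Connected outside `P` by nearest-neighbour moves. -/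
def Cn (P : Finset Site) : Site → Site → Prop :=
  Relation.ReflTransGen fun x y : Site => y ∉ P ∧ |x.1 - y.1| + |x.2 - y.2| = 1

/-- Close outer sites are connected. -/
def LC {ι : Type} (l : Filter ι) (a : ι → ℝ) (N : ι → Finset Site) : Prop :=
  ∃ r > (0 : ℝ), ∀ᶠ k in l, ∀ x ∉ N k, ∀ y ∉ N k, ‖pt (a k) x - pt (a k) y‖ ≤ r → Cn (N k) x y

/-- The points outside the closure. -/
def Ext (D : Set ℂ) : Set ℂ := {z | ‖z‖ ≤ 1 / 2 ∧ z ∉ closure D}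

/-- The places of the disorders. -/
def Pm (D : Set ℂ) : Set ℂ := D ∪ Ext D

/-- The modification of `Hs` at the ends of the missing edges. -/
noncomputable def hat (P : Finset Site) (Hs Hf : Site → ℝ) (x : Site) : ℝ :=
  Hs x + 1 / 5 * ((1 - ih P x) * (Hs (x.1 + 1, x.2) - Hf x) +
    (1 - ih P (x.1 - 1, x.2)) * (Hs (x.1 - 1, x.2) - Hf (x.1 - 1, x.2)) +
    (1 - iv P x) * (Hs (x.1, x.2 + 1) - Hf x) +
    (1 - iv P (x.1, x.2 - 1)) * (Hs (x.1, x.2 - 1) - Hf (x.1, x.2 - 1)))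

/-- The exceptional points; disorders away from the vertex set `V` are not counted. -/
structure Exg (V Λ : Finset Site) (τ θ : Site → ℝ) (P R G : Finset Site) : Prop where
  θc : ∀ i j : ℤ, ((i, j) : Site) ∉ P → θ (i - 1, j) = θ (i - 1, j - 1)
  τc : ∀ i j : ℤ, ((i, j) : Site) ∉ R → (∃ v ∈ cnr (i, j), v ∈ V) → τ (i, j) = τ (i, j - 1)
  inP : ∀ v ∈ P, ∀ x : Site, |x.1 - v.1| ≤ 1 → |x.2 - v.2| ≤ 1 → x ∈ Λ
  inR : ∀ v ∈ R, ∀ x : Site, |x.1 - v.1| ≤ 2 → |x.2 - v.2| ≤ 2 → x ∈ Λ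
  sub : G ⊆ R
  neg : ∀ f ∈ G, τ (f.1, f.2) = -τ (f.1, f.2 - 1)
  good : ∀ f ∈ G, ∀ v ∈ cnr f, v ∉ P

/-- `h` is the limit of `U` and `W`, whose insertions lie in the compact set `K`. -/
structure UData (D : Set ℂ) {ι : Type} (l : Filter ι) (a : ι → ℝ) (N : ι → Finset Site)
    (U W : ι → Site → ℝ) (K : Set ℂ) (h : ℂ → ℝ) : Prop where
  ne : l.NeBot
  a0 : Tendsto a l (𝓝[>] 0)
  ap : Appr D l a N
  lc : LC l a N
  cpt : IsCompact K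
  sub : K ⊆ D
  con : ∀ᶠ k in l, ∀ x ∉ N k, ∀ y, Cn (N k) x y → W k y = W k x
  far : ∀ᶠ k in l, ∃ M : ℕ, ∀ x ∉ box M, W k x = 0
  out : ∀ᶠ k in l, ∀ x : Site, (∀ y : Site, |y.1 - x.1| ≤ 2 → |y.2 - x.2| ≤ 2 → y ∉ N k) →
    U k x = W k x
  le : ∀ᶠ k in l, ∀ x, W k x ≤ U k x
  reg : ∀ z ∈ Dia \ K, ∀ᶠ kx in nf l a z, 0 ≤ lap (U kx.1) kx.2 ∧
    (kx.2 ∈ N kx.1 → lap (W kx.1) kx.2 ≤ 0)
  bdd : ∀ z ∈ Dia \ K, ∃ M, ∀ᶠ kx in nf l a z, U kx.1 kx.2 ≤ M ∧ -W kx.1 kx.2 ≤ M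
  hu : CConv l a (D \ K) U h
  hw : CConv l a (D \ K) W h

/-- Uniqueness; some of the branch points may lie outside `D`. -/
def UniX (D : Set ℂ) (Bd : (ℂ → ℂ) → Prop) : Prop :=
  ∀ (κ κ' : Type) [Fintype κ] [Fintype κ'] (ζ : κ → ℂ) (ω : κ' → ℂ) (q q1 q2 : ℂ → ℂ) (T : Set ℂ),
    (∀ p, ω p ∈ D) → Function.Injective (Sum.elim ζ ω) → T.Finite → T ⊆ D →
    (∀ z ∈ T, z ∉ Mk ζ ω) → DifferentiableOn ℂ q D → (∀ z ∈ D, z ∉ T → q z = q1 z - q2 z) →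
    (∀ p, ζ p ∈ D → ContinuousAt q1 (ζ p)) → (∀ p, ζ p ∈ D → ContinuousAt q2 (ζ p)) →
    Bd (F2 ζ ω q1) → Bd (F2 ζ ω q2) → (∀ p, ζ p ∈ D → H365.ResNN ζ ω q1 (ζ p)) →
    (∀ p, ζ p ∈ D → H365.ResNN ζ ω q2 (ζ p)) → (∀ p, q (ω p) = 0) → ∀ z ∈ D, q z = 0

/-- A small domain with its boundary condition. -/
structure Dom extends P144T.Dom where
  uniX : UniX D Bd
  vanU : ∀ {ι : Type} {l : Ultrafilter ι} {a : ι → ℝ} {N : ι → Finset Site} {U W : ι → Site → ℝ}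
    {K : Set ℂ} {h : ℂ → ℝ}, UData D (l : Filter ι) a N U W K h → Van D h
  bdU : ∀ {ι : Type} {l : Ultrafilter ι} {a : ι → ℝ} {N : ι → Finset Site} {U W : ι → Site → ℝ}
    {K : Set ℂ} {h : ℂ → ℝ}, UData D (l : Filter ι) a N U W K h → ∀ F : ℂ → ℂ,
    DifferentiableOn ℂ F (D \ K) → (∀ z ∈ D \ K, HD h (fun w => H365.cH * F w) z) → Bd F

/-- The family of sets of cells `P` approximates `D`. -/
def FamP (D : Set ℂ) (P : ℝ → Finset Site) : Prop := Fam0 D P ∧ LC (𝓝[>] 0) (fun a => a) P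

/-- Families of unions of blocks. -/
def FamB (D : Set ℂ) (P : ℝ → Finset Site) : Prop :=
  FamP D P ∧ (∀ a, Blk (P a)) ∧ Fam0 D fun a => Vx (P a)

/-- The lattice points of `X`. -/
noncomputable def fm (a : ℝ) (X : Finset ℂ) : Multiset Site := X.val.map (fl a)

/-- Two energies. -/
def K3W (P : ℝ → Finset Site) (p : Pts) (S : Finset ℂ) : Prop := ∀ k l : Fin p.m, k ≠ l →
  ∀ b b' : Bool, ∃ c : ℝ, Tendsto (fun a : ℝ =>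
    Wf (P a) (Rq p a + fm a S) [cp p a k b, cp p a l b'] / a) (𝓝[>] 0) (𝓝 c)

/-- The two corners of an energy. -/
def K4W (P : ℝ → Finset Site) (p : Pts) (S : Finset ℂ) : Prop := ∀ k : Fin p.m, ∃ c : ℝ,
  Tendsto (fun a : ℝ => (Wf (P a) (Rq p a + fm a S) [cp p a k false, cp p a k true] -
    Wf (P a) 0 [cp p a k false, cp p a k true]) / a) (𝓝[>] 0) (𝓝 c)

/-- The rescaled correlation of the spins at `X` and of the components of the points of `S`. -/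
noncomputable def GW (P : ℝ → Finset Site) (X S : Finset ℂ) (a : ℝ) : ℝ :=
  a ^ (-(X.card : ℝ) / 8) * MM (P a) (fm a X + fm a S)

/-- It has a positive limit. -/
def Cv (P : ℝ → Finset Site) (X S : Finset ℂ) : Prop :=
  ∃ g > 0, Tendsto (GW P X S) (𝓝[>] 0) (𝓝 g)

/-- It has the same positive limit in all families. -/
def NormW (D : Set ℂ) (X S : Finset ℂ) : Prop :=
  ∃ g > 0, ∀ P, FamP D P → Tendsto (GW P X S) (𝓝[>] 0) (𝓝 g)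

/-- Ratios converge. -/
def RatioX (D : Set ℂ) (P : ℝ → Finset Site) : Prop := ∀ X X' S : Finset ℂ, (∀ z ∈ X, z ∈ D) →
  (∀ z ∈ X', z ∈ D) → (∀ z ∈ S, z ∈ Ext D) → X.card = X'.card →
    ∃ ρ > 0, Tendsto (fun a => MM (P a) (fm a X + fm a S) / MM (P a) (fm a X' + fm a S))
      (𝓝[>] 0) (𝓝 ρ)

/-- Every component of the complement contains a point of `T`. -/
def Rep (P : ℝ → Finset Site) (T : Finset ℂ) : Prop := ∀ᶠ a in 𝓝[>] (0 : ℝ),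
  (∀ t ∈ T, fl a t ∉ P a) ∧ ∀ v ∉ P a, ∃ t ∈ T, Cn (P a) v (fl a t)

/-- Close points away from `D` are joined away from `D`. -/
def OutL (D : Set ℂ) : Prop := ∃ r > (0 : ℝ), ∀ ε > (0 : ℝ), ∃ δ > (0 : ℝ), ∀ z w : ℂ,
  ‖z - w‖ ≤ r → ε ≤ infDist z D → ε ≤ infDist w D → JoinedIn {u | δ ≤ infDist u D} z w

/-- The standing assumptions on the domain. -/
structure Std (D : Set ℂ) : Prop where
  op : IsOpen D
  small : D ⊆ ball 0 (1 / 4)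
  fat : Fat D
  ne : D.Nonempty

/-! ### The blocks: the `H`-function -/

def SEx : Prop := ∀ P τ θ A B C D, Spr P τ θ A B C D → ∃ Hs Hf, IsH A B C D Hs Hf

def SLap : Prop := ∀ P τ θ A B C D Hs Hf, Spr P τ θ A B C D → IsH A B C D Hs Hf → ∀ x : Site,
  Hs x ≤ hat P Hs Hf x ∧
  (θ (x.1 - 1, x.2) = θ (x.1 - 1, x.2 - 1) → hat P Hs Hf x - Hs x ≤ lap (hat P Hs Hf) x) ∧
  (x ∈ P → τ (x.1, x.2) = τ (x.1, x.2 - 1) → lap Hf x ≤ 0) ∧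
  (x ∉ P → ∀ y, Cn P x y → Hf y = Hf x) ∧ (x ∉ Vx P → ∀ f, x ∈ cnr f → Hf f = Hs x)

def SUnq : Prop := ∀ P τ θ A B C D, Spr P τ θ A B C D →
  (∀ i j : ℤ, θ (i - 1, j) = θ (i - 1, j - 1)) → ∀ f, A f = 0 ∧ B f = 0 ∧ C f = 0 ∧ D f = 0

def SCut : Prop := ∀ (P : Finset Site) (τ θ A B C E Hs Hf : Site → ℝ) (Q R G : Finset Site)
  (c : Site) (n : ℕ) (L : ℝ), Spr P τ θ A B C E → IsH A B C E Hs Hf → Exg (Vx P) P τ θ Q R G →
  0 < n → 0 ≤ L → Q ⊆ bx c n → R \ G ⊆ bx c n → (∀ f ∈ G, f ∉ bx c (8 * n)) →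
  (∀ x ∈ bx c (8 * n + 1), x ∈ P) → (∀ x ∈ bx c (8 * n), x ∉ bx c (n - 1) → |Hs x| ≤ L) →
  (∀ x ∈ bx c (8 * n), x ∉ bx c (n - 1) → |Hf x| ≤ L) → ∀ T : Finset Site,
    ∑ x ∈ T, |lap (fun x => (1 - H135.CT c (2 * n) x) * Hs x) x| +
      ∑ x ∈ T, |lap (fun x => (1 - H135.CT c (2 * n) x) * Hf x) x| ≤ 900000 * L

def SSq : Prop := ∀ (P Λ : Finset Site) (τ θ A B C E Hs Hf : Site → ℝ) (c : Site) (m : ℕ)
  (U W : Site → ℝ) (M : ℝ), Spr P τ θ A B C E → IsH A B C E Hs Hf → (∀ x ∉ Λ, U x = 0) →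
  (∀ x ∉ Λ, W x = 0) → (∀ x ∉ bx c m, U x = Hs x) → (∀ x ∉ bx c m, W x = Hf x) →
  (∀ T : Finset Site, ∑ w ∈ T, |lap U w| ≤ M) → (∀ T : Finset Site, ∑ w ∈ T, |lap W w| ≤ M) →
  ∀ (c' : Site) (r : ℕ) (T : Finset Site), (∀ x ∈ T, x ∈ bx c' r ∧ x ∉ bx c (m + 2) ∧ x ∈ P) →
    ∑ x ∈ T, (A x ^ 2 + B x ^ 2 + C x ^ 2 + E x ^ 2) ≤ 1152 * M * (r + 2)

def SPf : Prop := ∀ P (R : Multiset Site) (l : List AL.Cn),
  (∀ c ∈ l, c.1 ∈ cnr c.2 ∧ c.1 ∈ Vx P) → l.Nodup → Even l.length →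
    Wf P R l = Pf (fun c c' => Wf P R [c, c']) l

/-! ### The blocks: discrete identities and inequalities -/

/-- Kramers-Wannier duality. -/
def SKW : Prop := ∀ J > (0 : ℝ), ∀ (P : Finset Site) (τ : Type) (T : Finset τ) (π : τ → Site),
  (∀ t ∈ T, π t ∉ P) → (∀ v ∉ P, ∃ t ∈ T, Cn P v (π t)) → ∀ R, sP J P R =
    (∑ S ∈ T.powerset, MM P (R + S.val.map π)) / ∑ S ∈ T.powerset, MM P (S.val.map π)

/-- The elementary properties of the correlations. -/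
structure SMM : Prop where
  pos : ∀ P R, 0 < MM P R
  le : ∀ P R, MM P R ≤ 1
  gks : ∀ P R R', MM P R * MM P R' ≤ MM P (R + R')
  anti : ∀ P Q R, P ⊆ Q → MM Q R ≤ MM P R
  two : ∀ P P₁ P₂ R, P₁ ⊆ P → P₂ ⊆ P → Disjoint (Vx P₁) (Vx P₂) → MM P R ≤ MM P₁ R * MM P₂ R
  dbl : ∀ P x R, MM P (x ::ₘ x ::ₘ R) = MM P R
  con : ∀ P x y R, x ∉ P → Cn P x y → MM P (x ::ₘ R) = MM P (y ::ₘ R)
  far : ∀ P (x : Site) R, (∀ y ∈ P, y.1 ≠ x.1) → MM P (x ::ₘ R) = MM P R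
  blk : ∀ P R, Blk P → MM P R = H436.MM (Vx P) R
  ind : ∀ P R, H436.MM (Vx P) R ≤ MM P R

/-- A spin near the component of `ξ` is almost independent of everything outside `B`. -/
def SCov1 : Prop := ∀ J > (0 : ℝ), ∀ (P B : Finset Site) (ξ z : Site) (R : Multiset Site),
  ξ ∉ P → z ∈ P → z ∈ B →
  (∀ y ∉ P, (∃ x ∈ B, |x.1 - y.1| + |x.2 - y.2| ≤ 1) → Cn P ξ y) → (∀ x ∈ R, x ∉ B) →
    MM P (z ::ₘ ξ ::ₘ R) ≤ MM P R * MM P (z ::ₘ ξ ::ₘ 0) + (Multiset.card R + 1) * mag J B z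

/-- The same for one spin in the bulk. -/
def SCov2 : Prop := ∀ J > (0 : ℝ), ∀ (P B B' : Finset Site) (ξ z y : Site),
  ξ ∉ P → z ∈ P → z ∈ B → y ∈ B' → B' ⊆ P →
  (∀ y ∉ P, (∃ x ∈ B, |x.1 - y.1| + |x.2 - y.2| ≤ 1) → Cn P ξ y) →
  (∀ x ∈ B, ∀ x' ∈ B', 2 ≤ |x.1 - x'.1| + |x.2 - x'.2|) →
    MM P (z ::ₘ y ::ₘ 0) ≤ MM P (y ::ₘ ξ ::ₘ 0) * MM P (z ::ₘ ξ ::ₘ 0) + mag J B z * mag J B' y

/-! ### The blocks: the limits -/

def SDom : Prop := ∀ D : Set ℂ, P144Q.L.Lip3 D → IsConnected D → D ⊆ ball 0 (1 / 4) →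
  ∃ Ω : Dom, Ω.D = D

def SK34 : Prop := ∀ (Ω : Dom) (P : ℝ → Finset Site), FamP Ω.D P → ∀ p, Good0 Ω.D p →
  ∀ S : Finset ℂ, (∀ z ∈ S, z ∈ Ext Ω.D) → K3W P p S ∧ K4W P p S

def SRat : Prop := ∀ Ω Ω' : Dom, Ω'.D = H436.rc '' Ω.D → ∀ P, FamB Ω.D P → RatioX Ω.D P

def SAsm : Prop := ∀ J > (0 : ℝ), ∀ (D : Set ℂ) (P : ℝ → Finset Site) (T : Finset ℂ), FamP D P →
  Rep P T → (∀ p, Good0 D p → ∀ S ⊆ T, K3W P p S ∧ K4W P p S) →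
  (∀ X : Finset ℂ, (∀ z ∈ X, z ∈ D) → ∀ S ⊆ T, Cv P X S) → AllLim D fun a => pl J (P a)

def SLat : Prop := ∀ D : Set ℂ, Lip4 D → FamP D (disc D)

def SOut : Prop := ∀ D : Set ℂ, P144Q.L.Lip3 D → D.Nonempty → OutL D

def SRep : Prop := ∀ (D : Set ℂ) (P : ℝ → Finset Site), Std D → FamP D P →
  ∃ T : Finset ℂ, (∀ z ∈ T, z ∈ Ext D) ∧ Rep P T

def SSand : Prop := ∀ (D : Set ℂ) (P : ℝ → Finset Site), Std D → OutL D →
  FamP D P → ∃ P₁ P₂, FamB D P₁ ∧ FamB D P₂ ∧ ∀ᶠ a in 𝓝[>] (0 : ℝ), P₁ a ⊆ P a ∧ P a ⊆ P₂ a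

/-- From the families of blocks to all families. -/
def SAll : Prop := ∀ (D : Set ℂ) (X S : Finset ℂ), Std D → OutL D → (∃ P, FamP D P) →
  (∀ P, FamB D P → Cv P X S) → NormW D X S

/-- Near the component of `ξ` the correlation with it is large, and a box `B` as in `SCov1`
exists whose magnetisation is bounded. -/
def SBig : Prop := ∀ J > (0 : ℝ), ∀ (D : Set ℂ) (P : ℝ → Finset Site), Std D → FamP D P →
  ∀ ξ ∈ Ext D, ∀ F : Finset ℂ, (∀ w ∈ F, w ∈ Pm D) → ∃ ρ > (0 : ℝ), ∃ C : ℝ, ∀ A : ℝ, ∃ z ∈ D,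
    ∀ᶠ a in 𝓝[>] (0 : ℝ), A ≤ GW P {z} {ξ} a ∧ ∃ B : Finset Site, fl a z ∈ B ∧
      (∀ y ∉ P a, (∃ x ∈ B, |x.1 - y.1| + |x.2 - y.2| ≤ 1) → Cn (P a) (fl a ξ) y) ∧
      (∀ w ∈ F, ∀ x ∈ B, ρ ≤ ‖pt a x - w‖) ∧ a ^ (-(1 : ℝ) / 8) * mag J B (fl a z) ≤ C

/-- One spin and one component. -/
def SOne : Prop := ∀ (D : Set ℂ) (P : ℝ → Finset Site), Std D → FamB D P → RatioX D P →
  NormE D (fun a => Vx (P a)) → ∀ ξ ∈ Ext D, ∀ z ∈ D, Cv P {z} {ξ}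

/-- At most one spin. -/
def SHole : Prop := ∀ (D : Set ℂ) (P : ℝ → Finset Site), Std D → FamB D P → RatioX D P →
  (∀ ξ ∈ Ext D, ∀ z ∈ D, Cv P {z} {ξ}) → ∀ S : Finset ℂ, (∀ z ∈ S, z ∈ Ext D) →
    Cv P ∅ S ∧ ∀ z ∈ D, Cv P {z} S

/-- Any number of spins. -/
def SClu : Prop := ∀ (D : Set ℂ) (P : ℝ → Finset Site) (S : Finset ℂ), Std D → FamB D P →
  RatioX D P → NormE D (fun a => Vx (P a)) → (∀ z ∈ S, z ∈ Ext D) → NormW D ∅ S →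
  (∀ z ∈ D, NormW D {z} S) → ∀ X : Finset ℂ, (∀ z ∈ X, z ∈ D) → Cv P X S

/-- The result. -/
def SFin : Prop := ∀ J > (0 : ℝ), ∀ D : Set ℂ, Lip4 D → IsConnected D →
  AllLim D (crit J D (some fun _ _ => true)) ∧ AllLim D (crit J D (some fun _ _ => false))

end Vale.Agent.P144Y
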