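import Vale.Agent.P144Y.Pos
import Vale.Agent.P144Y.J.Asm
import Vale.Agent.P144X.T4

/-!
The limits do not depend on the directions of the energy edges.
-/

namespace Vale.Agent.P144Y

open Vale.Agent.P144 Vale.Agent.P144Z

theorem Nice.jind {J : ℝ} (hJ : 0 < J) {D : Set ℂ} {b : Option (ℝ → Config)} (h : Nice D b)
    {p : Pts} (hp : Good D p) {c : ℝ} (hc : Lim (crit J D b) p c) (j : Fin p.m → Fin 2) :
    Lim (crit J D b) { p with j := j } c := by
  rcases h.cases with ⟨h4, rfl | hb⟩ | ⟨h3, rfl⟩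
  exacts [P144X.jfreeT hJ h.lip3 h.1 hp hc j, jind4 hJ h4 h.1 hb hp hc j,
    P144X.jfreeT hJ h3 h.1 hp hc j]

end Vale.Agent.P144Y
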