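import Vale.Agent.P144Y.F.Fin
import Vale.Agent.P144Y.N.Big
import Vale.Agent.P144Y.N.One
import Vale.Agent.P144Y.N.Hole
import Vale.Agent.P144S.Nice

/-!
Existence of the scaling limits for the free, plus and minus boundary conditions in connected
domains.
-/

namespace Vale.Agent.P144Y

open Vale.Agent.P144 Vale.Agent.P144Z
open Vale.Agent.P144S (Sect)

theorem sfin : SFin := F.fin (N.one K.smm) (N.shole (N.big K.smm))

theorem all4 {J : ℝ} (hJ : 0 < J) {D : Set ℂ} (h : Lip4 D) (hs : IsConnected D)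
    {b : Option (ℝ → Config)} (hb : StdBC b) : AllLim D (crit J D b) := by
  rcases hb with rfl | rfl | rfl
  exacts [P144T.all3 hJ (P144S.L.lip3_of_lip4 h) hs, (sfin J hJ D h hs).1, (sfin J hJ D h hs).2]

/-- Connected domains without sharp reentrant corners. -/
def Nice (D : Set ℂ) (b : Option (ℝ → Config)) : Prop :=
  IsConnected D ∧
    ((IsC1 D ∨ IsOpen D ∧ Bornology.IsBounded D ∧ Convex ℝ D ∨ IsLip 1 D ∨
        IsPC1 D ∧ (∃ c < √2 / 2, Sect c D) ∨ IsPolygon D ∧ Sect (√2 / 2) D) ∧ StdBC b ∨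
      (IsLip 2 D ∨ (IsPC1 D ∨ IsPolygon D) ∧ ∃ c < (9 / 10 : ℝ), Sect c D) ∧ b = none)

/-- The two classes of charts. -/
theorem Nice.cases {D : Set ℂ} {b : Option (ℝ → Config)} (h : Nice D b) :
    Lip4 D ∧ StdBC b ∨ P144Q.L.Lip3 D ∧ b = none := by
  obtain ⟨-, ⟨h, hb⟩ | ⟨h, rfl⟩⟩ := h
  · refine Or.inl ⟨?_, hb⟩
    rcases h with h | ⟨o, bd, cv⟩ | h | ⟨h, c, hc, w⟩ | ⟨h, w⟩
    exacts [P144S.L.lip4_of_C1 h, P144S.L.lip4_of_convex o bd cv, P144S.L.lip4_of_isLip le_rfl h,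
      P144S.L.lip4_of_PC1 h fun z hz => ⟨c, hc, w z hz⟩, P144S.L.lip4_of_polygon h w]
  · refine Or.inr ⟨?_, rfl⟩
    rcases h with h | ⟨h | h, c, hc, w⟩
    exacts [P144Q.U.lip3_of_isLip le_rfl h, P144Q.U.lip3_of_PC1 h fun z hz => ⟨c, hc, w z hz⟩,
      P144Q.U.lip3_of_polygon h fun z hz => ⟨c, hc, w z hz⟩]

theorem Nice.allLim {J : ℝ} (hJ : 0 < J) {D : Set ℂ} {b : Option (ℝ → Config)} (h : Nice D b) :
    AllLim D (crit J D b) := by
  rcases h.cases with ⟨h4, hb⟩ | ⟨h3, rfl⟩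
  exacts [all4 hJ h4 h.1 hb, P144T.all3 hJ h3 h.1]

end Vale.Agent.P144Y
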