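import Vale.Agent.P144Y.Main
import Vale.Agent.P144X.Pos.Gen

/-!
The limits of the spin correlations are positive.
-/

namespace Vale.Agent.P144Y

open Vale.Agent.P144 Vale.Agent.P144Z

theorem Nice.lip3 {D : Set ℂ} {b : Option (ℝ → Config)} (h : Nice D b) : P144Q.L.Lip3 D :=
  h.cases.elim (fun h => P144S.L.lip3_of_lip4 h.1) fun h => h.1

theorem Nice.pos {J : ℝ} (hJ : 0 < J) {D : Set ℂ} {b : Option (ℝ → Config)} (h : Nice D b)
    {p : Pts} (hp : Good D p) (hm : p.m = 0) {c : ℝ} (hc : Lim (crit J D b) p c)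
    (hb : (b = none ∧ Even p.n) ∨ b = some fun _ _ => true) : 0 < c := by
  rcases hb with ⟨rfl, he⟩ | rfl
  exacts [P144X.posT hJ h.lip3.1 h.lip3.2.1 h.1.isPreconnected hp hm he hc,
    P144X.posP hJ h.lip3.1 h.lip3.2.1 hp hm hc]

end Vale.Agent.P144Y
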